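import Vale.Agent.P352NA.W0
import Vale.Agent.P352NA.PF.Main
import Vale.Agent.P352NA.MOM.R1

namespace Vale.Agent.Results.P352.ANetOnly

open Vale.Agent.P352.GF Vale.Agent.P352.H246 Vale.Agent.P352.H496 Vale.Agent.P352.H15
open Vale.Agent.P352.H755 Vale.Agent.P352.BW Vale.Agent.P352X Vale.Agent.P352NA
open Vale.Agent.P352.ND (PCh)
open UniformSpace (Completion)

universe u

/-- **Scale invariant theories with a local net are conformally invariant.**

Let `T` be a symmetric conserved stress tensor of the scale invariant theory `Q` (`Stress0`); its
charges on space-like hyperplanes are the generators `A X` of the Poincaré transformations (`PCh`).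
The vacuum is unique (`UVac`) and cyclic for the tensor fields (`TfGen`). Every field is a finite sum
of components of Lorentz multiplets (`MfAll`) and has a finite scaling law, in which logarithms are
allowed (`FSL`, `Scl`); the part of dimension four of `T` has no logarithms (`NoLog`). The smeared
fields are affiliated to the von Neumann algebras `N O` of a local net (`LNm`). Nothing is assumed
about conformal transformations, a virial current, time ordered products, energy bounds, the
reconstruction of fields or the spectrum of scaling dimensions.

Then `Q` has a stress tensor `T'` of dimension four with the charges of `T`, and `Q` extends, in the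
same Hilbert space, to a theory `Q'` (`Ext0`), whose fields are affiliated to the algebras of the
wedges of the given net (`AfW`), with a hermitian scalar field `L` of dimension two such that the
trace of `T'` is `3 □ L`. The tensor `t = T' + (∂∂ - η □) L` is a traceless improvement of `T'` whose
charges act on all fields by the infinitesimal conformal transformations (`ConfAct`), satisfy the
conformal Ward identities and generate the similitudes (`CFS`), for `Q'` and for all theories
obtained from `Q'` by adding local fields. Every field of `Q'` is a finite linear combination of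
derivatives of conformal primaries (`DescS`). -/
theorem result {D : Type u} [NormedAddCommGroup D] [InnerProductSpace ℂ D] (Q : Theory D)
    (T : Ix → Ix → Fld D) (hT : Stress0 Q T) (A : (V → V) → D → D) (hA : PCh Q T A)
    (hG : TfGen Q) (hM : MfAll Q) (hF : FSL Q) (hL : NoLog Q T)
    (N : Set V → VonNeumannAlgebra (Completion D)) (hN : LNm Q A N) (hU : L.UVac Q) :
    ∃ T', Q.IsStress T' ∧ PCh Q T' A ∧
    ∃ (D' : Submodule ℂ (Completion D)) (Q' : Theory D') (e : Fld D → Fld D') (L : Fld D'),
      Ext0 Q Q' e ∧ AfW N Q' (↑) ∧ Q'.IsStress (fun m n => e (T' m n)) ∧ Q'.IsScalar L 2 ∧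
      (∀ f v, IsTest f → tr (fun m n => e (T' m n)) f v = (3 : ℂ) • L (box f) v) ∧
      ∀ Q'' : Theory D', IsEnl Q' Q'' → IsImpr Q'' (fun m n => e (T' m n))
        (improve (fun m n => e (T' m n)) L) ∧ ConfAct Q'' (improve (fun m n => e (T' m n)) L) ∧
        CFS Q'' id (improve (fun m n => e (T' m n)) L) ∧
        ∀ B, Q'.fld B → ∃ (n : ℕ) (C : Fin n → Fld D'),
          (∀ i, DescS Q'' id (improve (fun m n => e (T' m n)) L) false (C i)) ∧
          ∀ f v, IsTest f → B f v = ∑ i, C i f v :=
  EB.NA.final_of (fun _ => EB.NA.pf_row) (fun ι => EB.NA.rig_row ι) Q T hT A hA hG hM hF hL N hN hU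

end Vale.Agent.Results.P352.ANetOnly
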